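import Vale.Agent.P092.H793.Nc.Fm
import Vale.Agent.P092.H899.O8

/-!
P092, project ND-CL (helper793): the linear data of the groups generated by the Siegel
transformations of a quadratic form.
-/

set_option linter.all false

open Filter Topology Set Matrix

namespace Vale.Agent.P092.H793.Nc

open Vale.Agent.P092.H303 (hyp Idx torF dgF)
open Vale.Agent.P092.H899.Ort

theorem psiM_smul {n k : Type} [Fintype n] [DecidableEq n] [Field k] (K : Matrix n n k)
    (u w : n → k) (s : k) : psiM K u (s • w) =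
      1 + s • (vecMulVec w (K *ᵥ u) - vecMulVec u (K *ᵥ w)) +
        s ^ 2 • (-(2⁻¹ * bf K w w) • vecMulVec u (K *ᵥ u)) := by
  unfold psiM
  simp only [mulVec_smul, map_smul, LinearMap.smul_apply]
  ext i j
  simp only [Matrix.sub_apply, Matrix.add_apply, Matrix.smul_apply, vecMulVec_apply, Pi.smul_apply,
    Pi.add_apply, smul_eq_mul, Matrix.neg_apply]
  ring

section gen

variable {n k : Type} [Fintype n] [DecidableEq n] [NontriviallyNormedField k] {K : Matrix n n k}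

theorem psiG_mem_W (h : Good K) (hΦ : IsEmbedding (phi (Om K))) {u w : n → k} (hu : bf K u u = 0)
    (hw : bf K u w = 0) : psiG K h.sym u w ∈ W (univ : Set k) (phi (Om K)) := by
  have hws : ∀ s : k, bf K u (s • w) = 0 := fun s => by rw [map_smul, hw, smul_zero]
  have hP : Pol fun s : k => 1 + s • (vecMulVec w (K *ᵥ u) - vecMulVec u (K *ᵥ w)) +
        s ^ 2 • (-(2⁻¹ * bf K w w) • vecMulVec u (K *ᵥ u)) := Pol.quad _ _ _
  have hQ : Pol fun s : k => 1 + s • (vecMulVec (-w) (K *ᵥ u) - vecMulVec u (K *ᵥ (-w))) +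
        s ^ 2 • (-(2⁻¹ * bf K (-w) (-w)) • vecMulVec u (K *ᵥ u)) := Pol.quad _ _ _
  refine mem_W_of_fam hΦ (mem_univ _) hP hQ (by simp) ?_ ?_
  · intro s _
    refine ⟨psiG K h.sym u (s • w), ?_, ?_⟩
    · rw [phi_apply, psiG_coe h.sym hu (hws s), psiM_smul]
    · have h1 : (psiG K h.sym u (s • w))⁻¹ = psiG K h.sym u (-(s • w)) :=
        (sysOf h).psi_inv hu (hws s)
      rw [h1, phi_apply, psiG_coe h.sym hu (by rw [map_neg, hws, neg_zero]), ← smul_neg, psiM_smul]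
  · rw [phi_apply, psiG_coe h.sym hu hw]
    have := psiM_smul K u w 1
    rw [one_smul] at this
    exact this

theorem W_om (h : Good K) (hΦ : IsEmbedding (phi (Om K))) :
    W (univ : Set k) (phi (Om K)) = ⊤ :=
  om_gen h _ fun _ _ hu hw => psiG_mem_W h hΦ hu hw

end gen

section hyp

variable {ι : Type} [Fintype ι] [DecidableEq ι] {k : Type} [NontriviallyNormedField k]
  [ProperSpace k] {J₀ : Matrix ι ι k} {q : ℕ}

/-- **The data of the orthogonal groups.** -/
theorem dat_om (hq : Dim q ι) (h2 : (2 : k) ≠ 0) (hJs : J₀ᵀ = J₀) (hJ : Aniso J₀)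
    (hcl : IsClosed (Om (hyp q 1 J₀) : Set (SpecialLinearGroup (Idx q ι) k)))
    (hs : ∀ N : Subgroup (Om (hyp q 1 J₀) ⧸ Subgroup.center (Om (hyp q 1 J₀))),
      N.Normal → N = ⊥ ∨ N = ⊤) : Dat (Om (hyp q 1 J₀)) := by
  have h := good_hyp hq h2 hJs hJ
  obtain ⟨r, hr⟩ := NormedField.exists_one_lt_norm k
  have hr0 : r ≠ 0 := by
    rintro rfl
    rw [norm_zero] at hr
    linarith
  have hr1 : 1 < ‖r ^ 2‖ := by
    rw [norm_pow]
    exact one_lt_pow₀ hr two_ne_zero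
  have hΦ := cemb_phi hcl
  have hq0 : 0 < q := by rcases hq with h | h <;> omega
  let i₀ : Fin q := ⟨0, hq0⟩
  -- two indices of weight zero
  obtain ⟨a, b, ha, hb, hab⟩ : ∃ a b : Idx q ι, wt (Pi.single i₀ 1) a = 0 ∧
      wt (Pi.single i₀ 1) b = 0 ∧ hyp q 1 J₀ a b ≠ 0 := by
    rcases hq with ⟨rfl, hι⟩ | ⟨hq, -⟩
    · obtain ⟨i⟩ := Fintype.card_pos_iff.1 hι
      refine ⟨.inr i, .inr i, rfl, rfl, ?_⟩
      have h1 := hJ (Pi.single i 1) (by
        intro h0
        have := congrFun h0 i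
        simp at this)
      simpa [hyp] using h1
    · let i₁ : Fin q := ⟨1, by omega⟩
      have h1 : (Pi.single i₀ (1 : ℤ) : Fin q → ℤ) i₁ = 0 :=
        Pi.single_eq_of_ne (by simp [i₀, i₁, Fin.ext_iff]) _
      refine ⟨.inl (.inl i₁), .inl (.inr i₁), h1, ?_, ?_⟩
      · show -((Pi.single i₀ (1 : ℤ) : Fin q → ℤ) i₁) = 0
        rw [h1, neg_zero]
      · simp [hyp]
  have e0 : (.inl (.inl i₀) : Idx q ι) ≠ b := by
    rintro rfl
    have : (Pi.single i₀ (1 : ℤ) : Fin q → ℤ) i₀ = 0 := hb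
    rw [Pi.single_eq_same] at this
    exact one_ne_zero this
  have e0' : (.inl (.inr i₀) : Idx q ι) ≠ b := by
    rintro rfl
    have : -((Pi.single i₀ (1 : ℤ) : Fin q → ℤ) i₀) = 0 := hb
    rw [Pi.single_eq_same] at this
    norm_num at this
  have hbf : ∀ x y : Idx q ι, bf (hyp q 1 J₀) (Pi.single x 1) (Pi.single y 1) = hyp q 1 J₀ x y := by
    intro x y
    rw [bf_apply, mulVec_single_one, single_one_dotProduct]
    rfl
  have hee : bf (hyp q 1 J₀) (Pi.single (.inl (.inl i₀)) 1) (Pi.single (.inl (.inl i₀)) 1) = 0 := by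
    rw [hbf]; simp [hyp]
  have heb : bf (hyp q 1 J₀) (Pi.single (.inl (.inl i₀)) 1) (Pi.single b 1) = 0 := by
    rw [hbf, (H303.hypAt_l q 1 J₀ i₀).row, if_neg e0'.symm]
  have hea : bf (hyp q 1 J₀) (Pi.single a 1) (Pi.single (.inl (.inl i₀)) 1) = 0 := by
    rw [bf_sym h.sym, hbf, (H303.hypAt_l q 1 J₀ i₀).row, if_neg]
    rintro rfl
    have : -((Pi.single i₀ (1 : ℤ) : Fin q → ℤ) i₀) = 0 := ha
    rw [Pi.single_eq_same] at this
    norm_num at this
  refine dat_of_W hs hΦ (neBot_univ k) (mem_univ _) (wt (Pi.single i₀ 1)) hr1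
    (a := ⟨torF q ι (pow_ne_zero 2 hr0) (Pi.single i₀ 1), torF_mem_om h hr0 _⟩) ?_
    (W_om h hΦ.isEmbedding)
    ⟨psiG (hyp q 1 J₀) h.sym (Pi.single (.inl (.inl i₀)) 1) (Pi.single b 1),
      .inl (.inl i₀), a, ?_, ?_⟩
  · exact diag_wt _ _
  · rw [ha]
    show (0 : ℤ) < (Pi.single i₀ (1 : ℤ) : Fin q → ℤ) i₀
    rw [Pi.single_eq_same]
    norm_num
  · rw [phi_apply, psiG_coe h.sym hee heb]
    have h1 : psiM (hyp q 1 J₀) (Pi.single (.inl (.inl i₀)) 1) (Pi.single b 1) (.inl (.inl i₀)) a =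
        (psiM (hyp q 1 J₀) (Pi.single (.inl (.inl i₀)) 1) (Pi.single b 1) *ᵥ Pi.single a 1)
          (.inl (.inl i₀)) := by
      rw [mulVec_single_one]; rfl
    rw [h1, psiM_mulVec h.sym, hea, zero_smul, add_zero, mul_zero, add_zero, hbf,
      Pi.sub_apply, Pi.smul_apply, Pi.single_eq_same, smul_eq_mul, mul_one, Pi.single_eq_of_ne,
      zero_sub]
    · exact neg_ne_zero.2 hab
    · rintro rfl
      have : (Pi.single i₀ (1 : ℤ) : Fin q → ℤ) i₀ = 0 := ha
      rw [Pi.single_eq_same] at this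
      exact one_ne_zero this

end hyp

end Vale.Agent.P092.H793.Nc
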