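import Vale.Agent.P092.H793.Nc.Fm
import Vale.Agent.P092.H899.V0
import Mathlib.Topology.Algebra.Group.Matrix

/-!
P092, project ND-CL (helper793): the linear data of the groups generated by the transvections of a
hermitian form over a division algebra.
-/

set_option linter.all false

open Filter Topology Set Matrix

namespace Vale.Agent.P092.H793.Nc

open Vale.Agent.P092.H103.QH
open Vale.Agent.P092.H899.Qu

section gen

variable {n D : Type} [Fintype n] [DecidableEq n] [NormedDivisionRing D]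

/-- the matrices of the elements -/
def phiU (G : Subgroup (Matrix n n D)ˣ) : G →* Matrix n n D where
  toFun g := g.1.1
  map_one' := rfl
  map_mul' _ _ := rfl

theorem phiU_apply (G : Subgroup (Matrix n n D)ˣ) (g : G) : phiU G g = g.1.1 := rfl

variable {k : Type} [NontriviallyNormedField k] [NormedAlgebra k D] [StarRing D]
  {J : Matrix n n D} {ε : D} {G : Subgroup (Matrix n n D)ˣ}

omit [Fintype n] [DecidableEq n] in
theorem csA (hst : ∀ t : k, star (algebraMap k D t) = algebraMap k D t) (t : k) :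
    Cs (algebraMap k D t) := ⟨hst t, fun x => Algebra.commutes t x⟩

theorem tvmU_eq (u : n → D) (c : D) (s : k) :
    tvm J u (algebraMap k D s * c) = 1 + s • vecMulVec (J *ᵥ star u) (c • u) := by
  unfold tvm
  congr 1
  ext i j
  rw [Matrix.smul_apply, vecMulVec_apply, vecMulVec_apply, Pi.smul_apply, Pi.smul_apply,
    smul_eq_mul, smul_eq_mul, Algebra.smul_def, ← mul_assoc, ← mul_assoc, ← mul_assoc,
    ← mul_assoc, Algebra.commutes]

theorem tvU_mem_W (hst : ∀ t : k, star (algebraMap k D t) = algebraMap k D t)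
    (he : ε = 1 ∨ ε = -1) (hle : GT ε J ≤ G) (hΦ : IsEmbedding (phiU G)) {u : n → D} {c : D}
    (hu : hf J u u = 0) (hc : CC ε c) (hg : tv J u c ∈ G) :
    (⟨tv J u c, hg⟩ : G) ∈ W (univ : Set k) (phiU G) := by
  have hP : Pol fun s : k => (1 : Matrix n n D) + s • vecMulVec (J *ᵥ star u) (c • u) :=
    Pol.lin1 _ _
  have hQ : Pol fun s : k => (1 : Matrix n n D) + s • vecMulVec (J *ᵥ star u) (-c • u) :=
    Pol.lin1 _ _
  refine mem_W_of_fam hΦ (mem_univ _) hP hQ (by rw [zero_smul, add_zero]) ?_ ?_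
  · intro s _
    have hcs : CC ε (algebraMap k D s * c) := CC.smul he (csA hst s) hc
    refine ⟨⟨tv J u (algebraMap k D s * c), hle (tv_mem_GT hu hcs)⟩, ?_, ?_⟩
    · rw [phiU_apply, tv_val hu, tvmU_eq]
    · rw [← tvmU_eq, mul_neg, ← tv_val hu, tv_neg hu]
      rfl
  · rw [phiU_apply, tv_val hu]
    have := tvmU_eq (k := k) (J := J) u c 1
    rw [map_one, one_mul] at this
    exact this

theorem WU_top (hst : ∀ t : k, star (algebraMap k D t) = algebraMap k D t)
    (he : ε = 1 ∨ ε = -1) (hle : GT ε J ≤ G) (hge : G ≤ GT ε J) (hΦ : IsEmbedding (phiU G)) :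
    W (univ : Set k) (phiU G) = ⊤ := by
  have h1 : GT ε J ≤ (W (univ : Set k) (phiU G)).map G.subtype := by
    unfold GT
    rw [Subgroup.closure_le]
    rintro _ ⟨u, c, hu, hc, rfl⟩
    exact ⟨⟨tv J u c, hle (tv_mem_GT hu hc)⟩, tvU_mem_W hst he hle hΦ hu hc _, rfl⟩
  rw [eq_top_iff]
  rintro g -
  obtain ⟨x, hx, hxg⟩ := h1 (hge g.2)
  have h2 : x = g := Subtype.ext hxg
  rw [← h2]
  exact hx

end gen

section hyp

variable {ι : Type} [Fintype ι] [DecidableEq ι] {k : Type} [NontriviallyNormedField k]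
  [ProperSpace k] {D : Type} [NormedDivisionRing D] [NormedAlgebra k D] [FiniteDimensional k D]
  [StarRing D] {ε : D} {J₀ : Matrix ι ι D} {q : ℕ}

/-- **The data of the quaternionic groups.** -/
theorem dat_quat (hst : ∀ t : k, star (algebraMap k D t) = algebraMap k D t) (hq : 1 ≤ q)
    (hF : Frm ε (hypD q ε J₀))
    (hcl : IsClosedEmbedding fun g : GT ε (hypD q ε J₀) => g.1.1)
    (hs : ∀ N : Subgroup (GT ε (hypD q ε J₀) ⧸ Subgroup.center (GT ε (hypD q ε J₀))),
      N.Normal → N = ⊥ ∨ N = ⊤) : Dat (GT ε (hypD q ε J₀)) := by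
  obtain ⟨t, ht⟩ := NormedField.exists_one_lt_norm k
  have ht0 : t ≠ 0 := by
    rintro rfl
    rw [norm_zero] at ht
    linarith
  have hΦ : IsClosedEmbedding (phiU (GT ε (hypD q ε J₀))) := hcl
  let i₀ : Fin q := ⟨0, hq⟩
  let e : (Fin q ⊕ Fin q) ⊕ ι → D := Pi.single (.inl (.inl i₀)) 1
  let f : (Fin q ⊕ Fin q) ⊕ ι → D := Pi.single (.inl (.inr i₀)) 1
  have hfs : ∀ x y, hf (hypD q ε J₀) (Pi.single x 1) (Pi.single y 1) = hypD q ε J₀ x y := by
    intro x y
    rw [hf_single, one_mul, star_one, mul_one]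
  have hee : hf (hypD q ε J₀) e e = 0 := by
    rw [hfs]; simp [hypD]
  have hff : hf (hypD q ε J₀) f f = 0 := by
    rw [hfs]; simp [hypD]
  have hef : hf (hypD q ε J₀) e f = 1 := by
    rw [hfs]; simp [hypD]
  obtain ⟨c, hc0, hc⟩ := hF.cc
  have hr0 : algebraMap k D t⁻¹ ≠ 0 := by
    rw [Ne, map_eq_zero]
    exact inv_ne_zero ht0
  have hmem := dv_mem hF hee hff hc (csA hst t⁻¹)
  refine dat_of_W hs hΦ (neBot_univ k) (mem_univ _) (wt (Pi.single i₀ 1)) ht
    (a := ⟨dv ε (hypD q ε J₀) e f c (algebraMap k D t⁻¹), hmem⟩) ?_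
    (WU_top hst hF.eps le_rfl le_rfl hΦ.isEmbedding)
    ⟨⟨tv (hypD q ε J₀) f c, tv_mem_GT hff hc⟩, .inl (.inl i₀), .inl (.inr i₀), ?_, ?_⟩
  · rw [phiU_apply]
    have key : ∀ i j, (dv ε (hypD q ε J₀) e f c (algebraMap k D t⁻¹)).1 i j =
        (Pi.single i 1 ᵥ* (dv ε (hypD q ε J₀) e f c (algebraMap k D t⁻¹)).1) j := by
      intro i j
      rw [single_one_vecMul]
      rfl
    ext i j
    rw [key, diagonal_apply]
    by_cases h1 : i = .inl (.inl i₀)
    · subst h1
      have h2 := u_dv hF hee hff hef hc0 hr0 (csA hst t⁻¹)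
      rw [show (Pi.single (.inl (.inl i₀)) 1 : (Fin q ⊕ Fin q) ⊕ ι → D) = e from rfl, h2]
      have h3 : wt (Pi.single i₀ (1 : ℤ)) (.inl (.inl i₀) : (Fin q ⊕ Fin q) ⊕ ι) = 1 := by
        show (Pi.single i₀ (1 : ℤ) : Fin q → ℤ) i₀ = 1
        rw [Pi.single_eq_same]
      rw [h3, zpow_one, Pi.smul_apply, smul_eq_mul, map_inv₀, inv_inv]
      show algebraMap k D t * (Pi.single (.inl (.inl i₀)) 1 : (Fin q ⊕ Fin q) ⊕ ι → D) j = _
      by_cases hj : .inl (.inl i₀) = j
      · subst hj; rw [if_pos rfl, Pi.single_eq_same, mul_one]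
      · rw [if_neg hj, Pi.single_eq_of_ne (Ne.symm hj), mul_zero]
    · by_cases h2 : i = .inl (.inr i₀)
      · subst h2
        have h2 := w_dv hF hee hff hef hc0 hr0 (csA hst t⁻¹)
        rw [show (Pi.single (.inl (.inr i₀)) 1 : (Fin q ⊕ Fin q) ⊕ ι → D) = f from rfl, h2]
        have h3 : wt (Pi.single i₀ (1 : ℤ)) (.inl (.inr i₀) : (Fin q ⊕ Fin q) ⊕ ι) = -1 := by
          show -((Pi.single i₀ (1 : ℤ) : Fin q → ℤ) i₀) = -1
          rw [Pi.single_eq_same]
        rw [h3, _root_.zpow_neg_one, Pi.smul_apply, smul_eq_mul]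
        show algebraMap k D t⁻¹ * (Pi.single (.inl (.inr i₀)) 1 : (Fin q ⊕ Fin q) ⊕ ι → D) j = _
        by_cases hj : .inl (.inr i₀) = j
        · subst hj; rw [if_pos rfl, Pi.single_eq_same, mul_one]
        · rw [if_neg hj, Pi.single_eq_of_ne (Ne.symm hj), mul_zero]
      · have h3 : wt (Pi.single i₀ (1 : ℤ)) i = 0 := by
          rcases i with (i | i) | i
          · have h4 : i ≠ i₀ := fun h => h1 (by rw [h])
            show (Pi.single i₀ (1 : ℤ) : Fin q → ℤ) i = 0
            exact Pi.single_eq_of_ne h4 _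
          · have h4 : i ≠ i₀ := fun h => h2 (by rw [h])
            show -((Pi.single i₀ (1 : ℤ) : Fin q → ℤ) i) = 0
            rw [Pi.single_eq_of_ne h4, neg_zero]
          · rfl
        have h5 : hf (hypD q ε J₀) (Pi.single i 1) e = 0 := by
          show hf (hypD q ε J₀) (Pi.single i 1) (Pi.single (.inl (.inl i₀)) 1) = 0
          rw [hfs]
          rcases i with (i | i) | i
          · simp [hypD]
          · have h4 : i ≠ i₀ := fun h => h2 (by rw [h])
            simp [hypD, Matrix.one_apply, h4]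
          · simp [hypD]
        have h6 : hf (hypD q ε J₀) (Pi.single i 1) f = 0 := by
          show hf (hypD q ε J₀) (Pi.single i 1) (Pi.single (.inl (.inr i₀)) 1) = 0
          rw [hfs]
          rcases i with (i | i) | i
          · have h4 : i ≠ i₀ := fun h => h1 (by rw [h])
            simp [hypD, Matrix.one_apply, h4]
          · simp [hypD]
          · simp [hypD]
        rw [y_dv hee hff h5 h6, h3, zpow_zero, map_one]
        by_cases hj : i = j
        · subst hj; rw [if_pos rfl, Pi.single_eq_same]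
        · rw [if_neg hj, Pi.single_eq_of_ne (Ne.symm hj)]
  · show -((Pi.single i₀ (1 : ℤ) : Fin q → ℤ) i₀) < (Pi.single i₀ (1 : ℤ) : Fin q → ℤ) i₀
    rw [Pi.single_eq_same]
    norm_num
  · rw [phiU_apply, tv_val hff]
    unfold tvm
    have h1 : star f = Pi.single (.inl (.inr i₀)) 1 := by
      funext l
      show star ((Pi.single (.inl (.inr i₀)) 1 : (Fin q ⊕ Fin q) ⊕ ι → D) l) = _
      by_cases hl : l = .inl (.inr i₀)
      · subst hl; simp
      · rw [Pi.single_eq_of_ne hl, star_zero]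
    have h2 : (hypD q ε J₀ *ᵥ star f) (.inl (.inl i₀)) = 1 := by
      rw [h1, mulVec_single_one]
      show hypD q ε J₀ (.inl (.inl i₀)) (.inl (.inr i₀)) = 1
      simp [hypD]
    rw [Matrix.add_apply, vecMulVec_apply, h2, Matrix.one_apply_ne (by simp), zero_add, one_mul,
      Pi.smul_apply, smul_eq_mul]
    show c * (Pi.single (.inl (.inr i₀)) 1 : (Fin q ⊕ Fin q) ⊕ ι → D) (.inl (.inr i₀)) ≠ 0
    rw [Pi.single_eq_same, mul_one]
    exact hc0

end hyp

end Vale.Agent.P092.H793.Nc
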