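import Vale.Agent.P092.H793.Nc.Pass
import Vale.Agent.P092.H793.Nc.Om
import Vale.Agent.P092.H793.Nc.Qu
import Vale.Agent.P092.H144.Nc.Main
import Vale.Agent.P092.H714.FinF

/-!
P092, project ND-CL (helper793): closed nondiscrete subgroups of finite covolume of the classical groups
of forms over local fields are open.
-/

set_option linter.all false

open Filter Topology Set Matrix

namespace Vale.Agent.P092.H793.Nc

open Vale.Agent.P092.H213.Nd (ND)
open Vale.Agent.P092.QC (QF)

/-- from the data -/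
theorem nd_of_dat {E : Type} [Group E] [TopologicalSpace E] {r : ℕ} (h : QF E r) (d : Dat E) :
    ND E := by
  obtain ⟨k, _, _, D, _, _, _, ι, _, _, Φ, w, t, a, hΦ, ht, ha, hNZ⟩ := d
  exact H144.Nc.nd_of_lin h Φ hΦ w t ht a ha hNZ

section cl

open Vale.Agent.P092.H303 (FormGroup hyp Idx)
open Vale.Agent.P092.H933 (LocK)
open Vale.Agent.P092.H714.Cl

/-- unitary and symplectic groups -/
theorem nd_su {k : Type} [NontriviallyNormedField k] [ProperSpace k] (hk : LocK k) {σ : k →+* k}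
    {ε : k} {ι : Type} [Fintype ι] [DecidableEq ι] {J₀ : Matrix ι ι k} {q : ℕ}
    (hσ : ∀ x, σ (σ x) = x) (hn : ∀ x, ‖σ x‖ = ‖x‖) (hε : ε * ε = 1) (hσε : σ ε = ε)
    (hH : ∀ i j, J₀ j i = ε * σ (J₀ i j))
    (hJ : ∀ v : ι → k, v ≠ 0 → v ⬝ᵥ (J₀ *ᵥ fun i => σ (v i)) ≠ 0) (hq : 1 ≤ q)
    (hu : (∃ c, σ c ≠ c) ∨ ε = -1 ∧ IsEmpty ι) : ND (FormGroup σ (hyp q ε J₀)) := by
  have hQ := (H714.ClF.isu_qfz hk hσ hn hε hσε hH hJ hq hu).1
  refine nd_of_dat hQ ?_
  by_cases hne : ∃ c, σ c ≠ c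
  · -- unitary
    have h0 := frm0_of_aniso hσ hε hne hH hσε hJ
    have hcc := cc_of_ne hσ hε hσε hne
    have hF : Frm σ ε (hyp q ε J₀) := frm_hyp hσ hε hσε h0 hcc (by omega)
    obtain ⟨r, hr, hr1⟩ := exists_fix hF hn
    have hr0 : r ≠ 0 := by
      rintro rfl
      rw [norm_zero] at hr1
      linarith
    have hr1' : r ≠ 1 := by
      rintro rfl
      rw [norm_one] at hr1
      linarith
    have hGT := formGroup_eq_GT hF hne hr hr0 hr1'
    exact dat_form hn hq hF hGT hQ.fac.simple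
  · -- symplectic
    obtain ⟨rfl, hι⟩ := hu.resolve_left hne
    push Not at hne
    obtain rfl : σ = RingHom.id k := RingHom.ext hne
    have hcc : ∃ c : k, c ≠ 0 ∧ c + -1 * (RingHom.id k) c = 0 :=
      ⟨1, one_ne_zero, by simp⟩
    have h0 : Frm0 (RingHom.id k) (-1) J₀ := frm0_empty
    have hF : Frm (RingHom.id k) (-1) (hyp q (-1) J₀) :=
      frm_hyp hσ hε hσε h0 hcc (by omega)
    have hGT : FormGroup (RingHom.id k) (hyp q (-1) J₀) =
        GT (RingHom.id k) (-1) (hyp q (-1) J₀) := by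
      refine H15.formGroup_eq_GT ⟨?_, ?_, ?_⟩
      · intro i
        rcases i with (i | i) | i
        · simp [hyp]
        · simp [hyp]
        · exact (hι.false i).elim
      · intro i j
        rcases i with (i | i) | i <;> rcases j with (j | j) | j <;>
          first
            | exact (hι.false i).elim
            | exact (hι.false j).elim
            | simp [hyp, Matrix.one_apply, eq_comm]
      · intro h
        obtain ⟨v, hv0, hv⟩ := Matrix.exists_vecMul_eq_zero_iff.2 h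
        obtain ⟨y, hy⟩ := hF.nondeg v hv0
        apply hy
        unfold hf
        rw [dotProduct_mulVec, hv, zero_dotProduct]
    exact dat_form hn hq hF hGT hQ.fac.simple

open Vale.Agent.P092.H899.Ort in
/-- orthogonal groups -/
theorem nd_om {k : Type} [NontriviallyNormedField k] [ProperSpace k] (hk : LocK k) {ι : Type}
    [Fintype ι] [DecidableEq ι] {J₀ : Matrix ι ι k} {q : ℕ} (hd : Dim q ι) (h2 : (2 : k) ≠ 0)
    (hJs : J₀ᵀ = J₀) (hJ : Aniso J₀) : ND (Om (hyp q 1 J₀)) := by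
  have hQ := (H714.ClF.qfz_om hk hd h2 hJs hJ).1
  exact nd_of_dat hQ (dat_om hd h2 hJs hJ (isClosed_om (good_hyp hd h2 hJs hJ)) hQ.fac.simple)

open Vale.Agent.P092.H899.Ort in
open Vale.Agent.P092.H714.ClF in
/-- **The classical groups of forms over fields.** -/
theorem nd_isCl {k G : Type} [NontriviallyNormedField k] [ProperSpace k] (hk : LocK k) [Group G]
    [TopologicalSpace G] [IsTopologicalGroup G] (h : PC.StF.IsCl k G) : ND G := by
  obtain ⟨σ, ε, ι, _, _, J₀, q, S, hc, hσ, hε, hσε, ⟨hH, hJ⟩, hq, hS, h⟩ := h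
  rcases h with ⟨hu, f, hf, hker⟩ | ⟨hid, rfl, h2, hd, f, hf, hker⟩
  · obtain rfl : S = FormGroup σ (hyp q ε J₀) := by
      ext g
      exact hS g
    exact nd_quo f hf (nd_su hk hσ (norm_of_continuous hc hσ) hε hσε hH hJ hq hu)
  · obtain rfl : σ = RingHom.id k := RingHom.ext hid
    have hJs : J₀.transpose = J₀ := by
      ext i j
      rw [transpose_apply, hH i j, one_mul]
      rfl
    have h1 := commutator_eq_om hd h2 hJs hJ S (fun g => by
      rw [mem_of_isom hS g]
      rfl)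
    have h3 : ND (⁅S, S⁆ : Subgroup _) := by
      rw [h1]
      exact nd_om hk hd h2 (inv_sym hJs) (Aniso.inv hJ)
    exact nd_quo f hf h3

end cl

open Vale.Agent.P092.H103.QH in
open Vale.Agent.P092.H899.Qu in
open Vale.Agent.P092.H933 (LocK) in
/-- **The quaternionic groups.** -/
theorem nd_isQuat {k : Type} [NontriviallyNormedField k] [ProperSpace k] (hk : LocK k) {D G : Type}
    [NormedDivisionRing D] [NormedAlgebra k D] (h : PC.StF.IsFC k D) [Group G]
    [TopologicalSpace G] [IsTopologicalGroup G] (hG : PC.StF.IsQuat k D G) : ND G := by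
  obtain ⟨hfd, -⟩ := h
  obtain ⟨h2, hnc, _, ht, ε, ι, _, _, J₀, q, S, hd, ⟨hH, hJ⟩, hq, hS, f, hf, hker⟩ := hG
  have hε : ε = 1 ∨ ε = -1 := hd.imp_right And.left
  have hst := star_alg ht hnc
  have hQ : Qn D := qn_of' ht h2 hnc
  have hd' : ε = -1 → 3 ≤ 2 * q + Fintype.card ι := by
    intro he
    rcases hd with h1 | h1
    · exfalso
      have h4 : (1 : D) = -1 := h1.symm.trans he
      have h5 : (2 : D) = 0 := by
        rw [← one_add_one_eq_two]
        nth_rewrite 2 [h4]
        exact add_neg_cancel 1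
      exact hQ.two h5
    · exact h1.2
  have hF : H103.QH.Frm ε (hypD q ε J₀) := frm_quat ht h2 hnc hε hH hJ hq
  have h3 : Dm3 ε (hypD q ε J₀) := dm3_hypD hQ.toQt hJ hq hd'
  obtain ⟨r, hr, hr1⟩ := hQ.big
  have hr0 : r ≠ 0 := by
    rintro rfl
    rw [norm_zero] at hr1
    linarith
  have hr2 : r * r ≠ 1 := by
    intro h5
    have h6 := congrArg (fun x : D => ‖x‖) h5
    simp only [norm_mul, norm_one] at h6
    nlinarith
  have hc := H289.QF.GT_eq_comm hQ.toQt hF h3 hr hr0 hr2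
  obtain rfl : S = FG (hypD q ε J₀) := by
    ext g
    exact hS g
  have hqf := qf_quat hk ht h2 hnc hε hH hJ hq hd'
  have hcl : IsClosedEmbedding fun g : GT ε (hypD q ε J₀) => g.1.1 :=
    H866.QL.isClosedEmbedding_GT hst ht hQ.toQt hF h3
  have h7 : ND (⁅FG (hypD q ε J₀), FG (hypD q ε J₀)⁆ : Subgroup _) := by
    rw [← hc]
    exact nd_of_dat hqf (dat_quat hst hq hF hcl hqf.fac.simple)
  exact nd_quo f hf h7

end Vale.Agent.P092.H793.Nc
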