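import Vale.Agent.P092.H793.Nc.Gen
import Mathlib.Topology.Instances.Matrix
import Mathlib.Analysis.Normed.Module.FiniteDimension

/-!
P092, project ND-CL (helper793): the linear data of a group (closed embedding in the matrices over a
division algebra, torus element, small transvections), from polynomial curves.
-/

set_option linter.all false

open Filter Topology Set

namespace Vale.Agent.P092.H793.Nc

/-- the hypotheses of `H144.Nc.nd_of_lin` besides `QF` -/
def Dat (E : Type) [Group E] [TopologicalSpace E] : Prop :=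
  ∃ (k : Type) (_ : NontriviallyNormedField k) (_ : ProperSpace k) (D : Type)
    (_ : NormedDivisionRing D) (_ : NormedAlgebra k D) (_ : FiniteDimensional k D) (ι : Type)
    (_ : Fintype ι) (_ : DecidableEq ι) (Φ : E →* Matrix ι ι D) (w : ι → ℤ) (t : k) (a : E),
    IsClosedEmbedding Φ ∧ 1 < ‖t‖ ∧ (Φ a = Matrix.diagonal fun i => algebraMap k D (t ^ w i)) ∧
    ∀ B ∈ 𝓝 (1 : E), ∀ y : E,
      (∀ b ∈ B, ∀ p q, w q < w p → Φ (b * y * b⁻¹) p q = 0) → y ∈ Subgroup.center E

theorem Pol.continuous {k : Type*} [NontriviallyNormedField k] {M : Type*} [AddCommGroup M]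
    [Module k M] [TopologicalSpace M] [ContinuousAdd M] [ContinuousSMul k M] {f : k → M}
    (hf : Pol f) : Continuous f := by
  obtain ⟨N, c, hc⟩ := hf
  rw [funext hc]
  exact continuous_finset_sum _ fun i _ => (continuous_id.pow i).smul continuous_const

/-- families of elements with polynomial matrices -/
theorem mem_W_of_fam {k : Type*} [NontriviallyNormedField k] {E : Type*} [Group E]
    [TopologicalSpace E] [IsTopologicalGroup E] {R : Type*} [Ring R] [Algebra k R]
    [TopologicalSpace R] [ContinuousAdd R] [ContinuousSMul k R] {T : Set k} {Φ : E →* R}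
    (hΦ : IsEmbedding Φ) (h1T : (1 : k) ∈ T) {P Q : k → R} (hP : Pol P) (hQ : Pol Q) (h0 : P 0 = 1)
    (hx : ∀ s ∈ T, ∃ x : E, Φ x = P s ∧ Φ x⁻¹ = Q s) {g : E} (hg : Φ g = P 1) : g ∈ W T Φ := by
  classical
  choose! u hu hu' using hx
  refine ⟨u, ⟨?_, ⟨P, hP, hu⟩, ⟨Q, hQ, hu'⟩⟩, hΦ.injective (by rw [hu 1 h1T, hg])⟩
  rw [hΦ.tendsto_nhds_iff, map_one]
  have h1 : Tendsto P (𝓝[T \ {0}] (0 : k)) (𝓝 1) := by
    have := (hP.continuous.tendsto 0).mono_left (nhdsWithin_le_nhds (s := T \ {0}))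
    rwa [h0] at this
  refine h1.congr' ?_
  have h4 : ∀ᶠ t in 𝓝[T \ {0}] (0 : k), t ∈ T \ {0} := self_mem_nhdsWithin
  filter_upwards [h4] with t ht
  exact (hu t ht.1).symm

/-- an element of norm less than one generates an accumulation at `0` -/
theorem neBot_of_pow {k : Type*} [NontriviallyNormedField k] {T : Set k} {r : k} (h0 : r ≠ 0)
    (h1 : ‖r‖ < 1) (hT : ∀ n : ℕ, r ^ n ∈ T) : (𝓝[T \ {0}] (0 : k)).NeBot := by
  have h2 : Tendsto (fun n : ℕ => r ^ n) atTop (𝓝[T \ {0}] (0 : k)) := by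
    refine tendsto_nhdsWithin_iff.2 ⟨tendsto_pow_atTop_nhds_zero_of_norm_lt_one h1, ?_⟩
    exact Eventually.of_forall fun n => ⟨hT n, pow_ne_zero n h0⟩
  exact h2.neBot

theorem neBot_univ (k : Type*) [NontriviallyNormedField k] :
    (𝓝[(univ : Set k) \ {0}] (0 : k)).NeBot := by
  obtain ⟨r, h0, h1⟩ := NormedField.exists_norm_lt_one k
  exact neBot_of_pow (norm_pos_iff.1 h0) h1 fun _ => trivial

/-- the data from polynomial curves -/
theorem dat_of_W {E : Type} [Group E] [TopologicalSpace E] [IsTopologicalGroup E]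
    (hs : ∀ N : Subgroup (E ⧸ Subgroup.center E), N.Normal → N = ⊥ ∨ N = ⊤)
    {k : Type} [NontriviallyNormedField k] [ProperSpace k] {D : Type} [NormedDivisionRing D]
    [NormedAlgebra k D] [FiniteDimensional k D] {ι : Type} [Fintype ι] [DecidableEq ι]
    {Φ : E →* Matrix ι ι D} (hΦ : IsClosedEmbedding Φ) {T : Set k}
    (hT : (𝓝[T \ {0}] (0 : k)).NeBot) (h1T : (1 : k) ∈ T) (w : ι → ℤ) {t : k} (ht : 1 < ‖t‖) {a : E}
    (ha : Φ a = Matrix.diagonal fun i => algebraMap k D (t ^ w i)) (hW : W T Φ = ⊤)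
    (hp : ∃ g i j, w j < w i ∧ Φ g i j ≠ 0) : Dat E :=
  ⟨k, inferInstance, inferInstance, D, inferInstance, inferInstance, inferInstance, ι, inferInstance,
    inferInstance, Φ, w, t, a, hΦ, ht, ha, hNZ_of_W hs hT h1T w ht ha hW hp⟩

end Vale.Agent.P092.H793.Nc
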