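import Vale.Agent.P092.H213.Nd.Bd
import Mathlib.GroupTheory.Index
import Mathlib.Topology.Algebra.OpenSubgroup

/-!
P092, project ND-CL (helper793): the property `ND` passes along open continuous homomorphisms whose
range has finite index (quotients, open subgroups of finite index).
-/

set_option linter.all false

open Filter Topology MeasureTheory Set

namespace Vale.Agent.P092.H793.Nc

open Vale.Agent.P092.H213.Nd (Cov ND)

section

variable {S G : Type} [Group S] [Group G] (f : S →* G) (H : Subgroup G)

/-- the comparison map of homogeneous spaces -/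
def qm : S ⧸ (H.comap f) → G ⧸ H :=
  Quotient.map' f (by
    intro a b hab
    rw [QuotientGroup.leftRel_apply] at hab ⊢
    rw [← map_inv, ← map_mul]
    exact hab)

theorem qm_mk (s : S) : qm f H (s : S ⧸ (H.comap f)) = ((f s : G) : G ⧸ H) := rfl

theorem qm_inj : Function.Injective (qm f H) := by
  intro x y h
  obtain ⟨a, rfl⟩ := QuotientGroup.mk_surjective x
  obtain ⟨b, rfl⟩ := QuotientGroup.mk_surjective y
  rw [qm_mk, qm_mk, QuotientGroup.eq, ← map_inv, ← map_mul] at h
  rw [QuotientGroup.eq]
  exact h

theorem qm_smul (s : S) (x : S ⧸ (H.comap f)) : qm f H (s • x) = f s • qm f H x := by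
  obtain ⟨a, rfl⟩ := QuotientGroup.mk_surjective x
  show qm f H ((s * a : S) : S ⧸ (H.comap f)) = f s • (((f a : G)) : G ⧸ H)
  rw [qm_mk, map_mul]
  rfl

variable {f H} [TopologicalSpace S] [TopologicalSpace G]

theorem qm_cont (hc : Continuous f) : Continuous (qm f H) := by
  refine Continuous.quotient_map' hc _

theorem qm_open [IsTopologicalGroup G] (ho : IsOpenMap f) : IsOpenMap (qm f H) := by
  intro V hV
  have h1 : qm f H '' V = (QuotientGroup.mk : G → G ⧸ H) '' (f '' (QuotientGroup.mk ⁻¹' V)) := by
    ext y
    constructor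
    · rintro ⟨x, hx, rfl⟩
      obtain ⟨a, rfl⟩ := QuotientGroup.mk_surjective x
      exact ⟨f a, ⟨a, hx, rfl⟩, rfl⟩
    · rintro ⟨_, ⟨a, ha, rfl⟩, rfl⟩
      exact ⟨_, ha, rfl⟩
  rw [h1]
  exact QuotientGroup.isOpenMap_coe _ (ho _ (hV.preimage continuous_quotient_mk'))

end

/-- **`ND` passes along open homomorphisms with a range of finite index.** -/
theorem nd_of_open {S G : Type} [Group S] [TopologicalSpace S] [Group G] [TopologicalSpace G]
    [IsTopologicalGroup G] (f : S →* G) (hc : Continuous f) (ho : IsOpenMap f)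
    (hfi : f.range.FiniteIndex) (h : ND S) : ND G := by
  intro H hH ⟨ν, h0, hfin, hinv⟩ hd
  have hcl : IsClosed ((H.comap f : Subgroup S) : Set S) := hH.preimage hc
  have hopen : IsOpen ((H.comap f : Subgroup S) : Set S) := by
    refine h _ hcl ?_ ?_
    · -- the measure
      letI m1 : MeasurableSpace (G ⧸ H) := borel _
      haveI : BorelSpace (G ⧸ H) := ⟨rfl⟩
      letI m2 : MeasurableSpace (S ⧸ (H.comap f)) := borel _
      haveI : BorelSpace (S ⧸ (H.comap f)) := ⟨rfl⟩
      have he : MeasurableEmbedding (qm f H) :=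
        (IsOpenEmbedding.of_continuous_injective_isOpenMap (qm_cont hc) (qm_inj f H)
          (qm_open ho)).measurableEmbedding
      have hap : ∀ A : Set (S ⧸ (H.comap f)), (ν.comap (qm f H)) A = ν (qm f H '' A) :=
        fun A => he.comap_apply ν A
      refine ⟨ν.comap (qm f H), ?_, ?_, ?_⟩
      · intro hz
        apply h0
        rw [← Measure.measure_univ_eq_zero]
        have h1 : ν (range (qm f H)) = 0 := by
          rw [← image_univ, ← hap, hz]; rfl
        have h2 : (univ : Set (G ⧸ H)) ⊆
            ⋃ t : G ⧸ f.range, (fun x : G ⧸ H => (t.out)⁻¹ • x) ⁻¹' (range (qm f H)) := by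
          intro x _
          obtain ⟨g, rfl⟩ := QuotientGroup.mk_surjective x
          refine mem_iUnion.2 ⟨(g : G ⧸ f.range), ?_⟩
          have h3 : ((g : G ⧸ f.range).out)⁻¹ * g ∈ f.range := by
            rw [← QuotientGroup.eq, QuotientGroup.out_eq']
          obtain ⟨s, hs⟩ := h3
          refine ⟨(s : S ⧸ (H.comap f)), ?_⟩
          rw [qm_mk, hs]
          rfl
        haveI := hfi
        haveI : Finite (G ⧸ f.range) := inferInstance
        refine measure_mono_null h2 ((measure_iUnion_null_iff).2 fun t => ?_)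
        rw [hinv _ _ ?_, h1]
        rw [← image_univ]
        exact he.measurableSet_image.2 MeasurableSet.univ
      · rw [hap]
        exact lt_of_le_of_lt (measure_mono (subset_univ _)) hfin
      · intro s A hA
        rw [hap, hap, ← hinv (f s) _ (he.measurableSet_image.2 hA)]
        congr 1
        ext y
        constructor
        · rintro ⟨x, hx, rfl⟩
          exact ⟨s • x, hx, qm_smul f H s x⟩
        · rintro ⟨x, hx, hxy⟩
          refine ⟨s⁻¹ • x, ?_, ?_⟩
          · show s • s⁻¹ • x ∈ A
            rw [smul_inv_smul]; exact hx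
          · rw [qm_smul, hxy, map_inv]
            exact inv_smul_smul _ _
    · intro hdis
      apply hd
      have h1 : IsOpen ({1} : Set (H.comap f)) := by
        haveI := hdis
        exact isOpen_discrete _
      obtain ⟨U, hU, hU1⟩ := isOpen_induced_iff.1 h1
      refine discreteTopology_of_isOpen_singleton_one ?_
      refine isOpen_induced_iff.2 ⟨f '' U, ho U hU, ?_⟩
      ext x
      constructor
      · rintro ⟨u, hu, hux⟩
        have hu' : u ∈ H.comap f := by
          show f u ∈ H
          rw [hux]; exact x.2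
        have h2 : (⟨u, hu'⟩ : H.comap f) ∈ ((↑) : (H.comap f) → S) ⁻¹' U := hu
        rw [hU1] at h2
        have h3 : u = 1 := congrArg Subtype.val (mem_singleton_iff.1 h2)
        refine mem_singleton_iff.2 (Subtype.ext ?_)
        rw [← hux, h3, map_one]; rfl
      · intro hx
        rw [mem_singleton_iff.1 hx]
        have h2 : (1 : H.comap f) ∈ ((↑) : (H.comap f) → S) ⁻¹' U := by
          rw [hU1]; exact mem_singleton _
        exact ⟨1, h2, map_one f⟩
  have h4 : IsOpen (f '' ((H.comap f : Subgroup S) : Set S)) := ho _ hopen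
  refine Subgroup.isOpen_of_mem_nhds H (g := 1) ?_
  refine mem_of_superset (h4.mem_nhds ⟨1, one_mem _, map_one f⟩) ?_
  rintro _ ⟨s, hs, rfl⟩
  exact hs

/-- **(P1)** open subgroups of finite index -/
theorem nd_of_fi {G : Type} [Group G] [TopologicalSpace G] [IsTopologicalGroup G] (N : Subgroup G)
    (hf : N.FiniteIndex) (ho : IsOpen (N : Set G)) (h : ND N) : ND G := by
  refine nd_of_open N.subtype continuous_subtype_val ho.isOpenMap_subtype_val ?_ h
  rw [Subgroup.range_subtype]
  exact hf

/-- **(P2)** quotients -/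
theorem nd_quo {S G : Type} [Group S] [TopologicalSpace S] [IsTopologicalGroup S] [Group G]
    [TopologicalSpace G] [IsTopologicalGroup G] (f : S →* G) (hf : IsQuotientMap f) (h : ND S) :
    ND G := by
  refine nd_of_open f hf.continuous ?_ ?_ h
  · intro U hU
    rw [← hf.isOpen_preimage]
    have h1 : f ⁻¹' (f '' U) = ⋃ z : f.ker, (fun x => x * (z : S)) '' U := by
      ext x
      simp only [mem_preimage, mem_image, mem_iUnion]
      constructor
      · rintro ⟨u, hu, hux⟩
        refine ⟨⟨u⁻¹ * x, ?_⟩, u, hu, ?_⟩
        · rw [MonoidHom.mem_ker, map_mul, map_inv, hux, inv_mul_cancel]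
        · exact mul_inv_cancel_left u x
      · rintro ⟨z, u, hu, rfl⟩
        refine ⟨u, hu, ?_⟩
        rw [map_mul, (MonoidHom.mem_ker).1 z.2, mul_one]
    rw [h1]
    exact isOpen_iUnion fun z => (Homeomorph.mulRight (z : S)).isOpenMap U hU
  · rw [MonoidHom.range_eq_top.2 hf.surjective]
    exact inferInstance

/-- isomorphic groups -/
theorem nd_congr {S G : Type} [Group S] [TopologicalSpace S] [Group G]
    [TopologicalSpace G] [IsTopologicalGroup G] (e : S ≃* G) (hc : Continuous e)
    (hc' : Continuous e.symm) (h : ND S) : ND G := by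
  refine nd_of_open e.toMonoidHom hc ?_ ?_ h
  · exact (Homeomorph.mk e.toEquiv hc hc').isOpenMap
  · rw [show e.toMonoidHom.range = ⊤ from MonoidHom.range_eq_top.2 e.surjective]
    exact inferInstance

end Vale.Agent.P092.H793.Nc
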