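import Vale.Agent.P092.H793.Nc.Dat
import Vale.Agent.P092.H714.Cl3

/-!
P092, project ND-CL (helper793): the linear data of the groups of forms generated by transvections
(unitary and symplectic groups).
-/

set_option linter.all false

open Filter Topology Set Matrix

namespace Vale.Agent.P092.H793.Nc

open Vale.Agent.P092.H303 (FormGroup hyp Idx torF dgF)
open Vale.Agent.P092.H714.Cl

/-- the matrices of the elements -/
def phi {n k : Type} [Fintype n] [DecidableEq n] [Field k] (G : Subgroup (SpecialLinearGroup n k)) :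
    G →* Matrix n n k where
  toFun g := g.1.1
  map_one' := rfl
  map_mul' _ _ := rfl

theorem phi_apply {n k : Type} [Fintype n] [DecidableEq n] [Field k]
    (G : Subgroup (SpecialLinearGroup n k)) (g : G) : phi G g = g.1.1 := rfl

theorem cemb_phi {n k : Type} [Fintype n] [DecidableEq n] [NontriviallyNormedField k]
    {G : Subgroup (SpecialLinearGroup n k)} (hG : IsClosed (G : Set (SpecialLinearGroup n k))) :
    IsClosedEmbedding (phi G) :=
  (Matrix.SpecialLinearGroup.isClosedEmbedding_val (n := n) (R := k)).comp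
    hG.isClosedEmbedding_subtypeVal

/-- the weights: `1` on the first vector of the first hyperbolic plane, `-1` on the second one -/
def wt {q : ℕ} {ι : Type} (l : Fin q → ℤ) : Idx q ι → ℤ :=
  Sum.elim (Sum.elim (fun i => l i) (fun i => -l i)) (fun _ => 0)

theorem diag_wt {q : ℕ} {ι k : Type} [Fintype ι] [DecidableEq ι] [Field k] (l : Fin q → ℤ) (t : k) :
    Matrix.diagonal (dgF q ι t l) = Matrix.diagonal fun i => algebraMap k k (t ^ wt l i) := by
  congr 1
  funext i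
  rcases i with (i | i) | i
  · rfl
  · rfl
  · show (1 : k) = t ^ (0 : ℤ)
    rw [zpow_zero]

section form

variable {ι : Type} [Fintype ι] [DecidableEq ι] {k : Type} [NontriviallyNormedField k]
  {σ : k →+* k} {ε : k} {J₀ : Matrix ι ι k} {q : ℕ}

theorem tvm_eq {n : Type} [Fintype n] [DecidableEq n] (J : Matrix n n k) (u : n → k) (c s : k) :
    tvm σ J u (s * c) = 1 + s • vecMulVec (J *ᵥ fun i => σ (u i)) (c • u) := by
  unfold tvm
  rw [mul_smul, vecMulVec_smul]

variable [ProperSpace k]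

section gen

variable {n : Type} [Fintype n] [DecidableEq n] {J : Matrix n n k}
  {G : Subgroup (SpecialLinearGroup n k)}

omit [Fintype ι] [DecidableEq ι] [ProperSpace k] in
theorem tv_mem_W (hle : GT σ ε J ≤ G) (hΦ : IsEmbedding (phi G)) {u : n → k} {c : k}
    (hu : hf σ J u u = 0) (hc : c + ε * σ c = 0) (hg : tv σ J u c ∈ G) :
    (⟨tv σ J u c, hg⟩ : G) ∈ W {s : k | σ s = s} (phi G) := by
  have h1T : (1 : k) ∈ {s : k | σ s = s} := map_one σ
  have hP : Pol fun s : k => (1 : Matrix n n k) + s • vecMulVec (J *ᵥ fun i => σ (u i)) (c • u) :=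
    Pol.lin1 _ _
  have hQ : Pol fun s : k => (1 : Matrix n n k) + s • vecMulVec (J *ᵥ fun i => σ (u i)) (-c • u) :=
    Pol.lin1 _ _
  refine mem_W_of_fam hΦ h1T hP hQ (by rw [zero_smul, add_zero]) ?_ ?_
  · intro s hs
    have hcs : s * c + ε * σ (s * c) = 0 := cc_fix hs hc
    refine ⟨⟨tv σ J u (s * c), hle (tv_mem_GT hu hcs)⟩, ?_, ?_⟩
    · rw [phi_apply, tv_val hu, tvm_eq]
    · rw [← tvm_eq, mul_neg, ← tv_val hu, tv_neg hu]
      rfl
  · rw [phi_apply, tv_val hu]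
    have := tvm_eq (σ := σ) J u c 1
    rw [one_mul] at this
    exact this

omit [Fintype ι] [DecidableEq ι] [ProperSpace k] in
theorem W_top (hle : GT σ ε J ≤ G) (hge : G ≤ GT σ ε J) (hΦ : IsEmbedding (phi G)) :
    W {s : k | σ s = s} (phi G) = ⊤ := by
  have h1 : GT σ ε J ≤ (W {s : k | σ s = s} (phi G)).map G.subtype := by
    unfold GT
    rw [Subgroup.closure_le]
    rintro _ ⟨u, c, hu, hc, rfl⟩
    exact ⟨⟨tv σ J u c, hle (tv_mem_GT hu hc)⟩, tv_mem_W hle hΦ hu hc _, rfl⟩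
  rw [eq_top_iff]
  rintro g -
  obtain ⟨x, hx, hxg⟩ := h1 (hge g.2)
  have h2 : x = g := Subtype.ext hxg
  rw [← h2]
  exact hx

end gen

/-- **The data of unitary and symplectic groups.** -/
theorem dat_form (hσ : ∀ x, ‖σ x‖ = ‖x‖) (hq : 1 ≤ q) (hF : Frm σ ε (hyp q ε J₀))
    (hG : FormGroup σ (hyp q ε J₀) = GT σ ε (hyp q ε J₀))
    (hs : ∀ N : Subgroup (FormGroup σ (hyp q ε J₀) ⧸ Subgroup.center (FormGroup σ (hyp q ε J₀))),
      N.Normal → N = ⊥ ∨ N = ⊤) : Dat (FormGroup σ (hyp q ε J₀)) := by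
  obtain ⟨r, hr, hr1⟩ := exists_fix hF hσ
  have hr0 : r ≠ 0 := by
    rintro rfl
    rw [norm_zero] at hr1
    linarith
  have hcl : IsClosed (FormGroup σ (hyp q ε J₀) : Set (SpecialLinearGroup (Idx q ι) k)) :=
    H303.isClosed_formGroup (continuous_of_norm hσ) _
  have hΦ := cemb_phi hcl
  let i₀ : Fin q := ⟨0, hq⟩
  have h1T : (1 : k) ∈ {s : k | σ s = s} := map_one σ
  have hT : (𝓝[{s : k | σ s = s} \ {0}] (0 : k)).NeBot := by
    refine neBot_of_pow (r := r⁻¹) (inv_ne_zero hr0) ?_ fun n => ?_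
    · rw [norm_inv]
      exact inv_lt_one_of_one_lt₀ hr1
    · show σ (r⁻¹ ^ n) = r⁻¹ ^ n
      rw [map_pow, map_inv₀, hr]
  have hW : W {s : k | σ s = s} (phi (FormGroup σ (hyp q ε J₀))) = ⊤ :=
    W_top (GT_le hF) hG.le hΦ.isEmbedding
  obtain ⟨c, hc0, hc⟩ := hF.cc
  have e1 : (fun i => σ ((Pi.single (.inl (.inr i₀)) (1 : k) : Idx q ι → k) i)) =
      Pi.single (.inl (.inr i₀)) 1 := by
    funext l
    by_cases hl : l = .inl (.inr i₀)
    · subst hl; simp
    · rw [Pi.single_eq_of_ne hl, map_zero]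
  have e2 : ∀ x, (hyp q ε J₀ *ᵥ fun i => σ ((Pi.single (.inl (.inr i₀)) (1 : k) : Idx q ι → k) i)) x
      = hyp q ε J₀ x (.inl (.inr i₀)) := by
    intro x
    rw [e1, mulVec_single_one]
    rfl
  have hu : hf σ (hyp q ε J₀) (Pi.single (.inl (.inr i₀)) 1) (Pi.single (.inl (.inr i₀)) 1) = 0 := by
    unfold hf
    rw [single_one_dotProduct, e2]
    simp [hyp]
  refine dat_of_W hs hΦ hT h1T (wt (Pi.single i₀ 1)) hr1
    (a := ⟨torF q ι hr0 (Pi.single i₀ 1), H303.torF_mem q ε J₀ hr0 hr _⟩) ?_ hW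
    ⟨⟨tv σ (hyp q ε J₀) (Pi.single (.inl (.inr i₀)) 1) c, GT_le hF (tv_mem_GT hu hc)⟩,
      .inl (.inl i₀), .inl (.inr i₀), ?_, ?_⟩
  · exact diag_wt _ _
  · show -((Pi.single i₀ (1 : ℤ) : Fin q → ℤ) i₀) < (Pi.single i₀ (1 : ℤ) : Fin q → ℤ) i₀
    rw [Pi.single_eq_same]
    norm_num
  · rw [phi_apply]
    show (tv σ (hyp q ε J₀) (Pi.single (.inl (.inr i₀)) 1) c).1 _ _ ≠ 0
    rw [tv_val hu]
    unfold tvm
    rw [Matrix.add_apply, vecMulVec_apply, e2, Matrix.one_apply_ne (by simp), zero_add,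
      Pi.smul_apply, Pi.single_eq_same, smul_eq_mul, mul_one]
    have e3 : hyp q ε J₀ (.inl (.inl i₀)) (.inl (.inr i₀)) = 1 := by simp [hyp]
    rw [e3, one_mul]
    exact hc0

end form

end Vale.Agent.P092.H793.Nc
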