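import Mathlib.Topology.Algebra.Module.Basic
import Mathlib.Analysis.Normed.Field.Basic
import Mathlib.Analysis.Normed.Module.Basic
import Mathlib.GroupTheory.Subgroup.Center
import Mathlib.GroupTheory.QuotientGroup.Basic
import Mathlib.LinearAlgebra.Matrix.Defs
import Mathlib.Data.Matrix.Mul
import Mathlib.Data.Matrix.Basic
import Mathlib.Algebra.Group.Subgroup.Basic
import Mathlib.LinearAlgebra.FiniteDimensional.Lemmas
import Mathlib.LinearAlgebra.FiniteDimensional.Basic

/-!
P092, project ND-CL (helper793): a matrix group generated by polynomial curves has small transvections: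
an element whose small conjugates have no entry of positive weight is central.
-/

set_option linter.all false

open Filter Topology Set

namespace Vale.Agent.P092.H793.Nc

/-! ### Polynomial maps -/

section pol

variable {k : Type*} [NontriviallyNormedField k]

/-- polynomial maps with values in a module -/
def Pol {M : Type*} [AddCommGroup M] [Module k M] (f : k → M) : Prop :=
  ∃ (N : ℕ) (c : ℕ → M), ∀ t, f t = ∑ i ∈ Finset.range N, t ^ i • c i

variable {M : Type*} [AddCommGroup M] [Module k M]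

theorem Pol.const (m : M) : Pol (k := k) fun _ => m :=
  ⟨1, fun _ => m, fun t => by simp⟩

theorem Pol.mono {f : k → M} {N : ℕ} {c : ℕ → M}
    (h : ∀ t, f t = ∑ i ∈ Finset.range N, t ^ i • c i) {N' : ℕ} (hN : N ≤ N') :
    ∃ c' : ℕ → M, ∀ t, f t = ∑ i ∈ Finset.range N', t ^ i • c' i := by
  refine ⟨fun i => if i < N then c i else 0, fun t => ?_⟩
  rw [h t, ← Finset.sum_subset (Finset.range_subset_range.2 hN)]
  · refine Finset.sum_congr rfl fun i hi => ?_
    beta_reduce
    rw [if_pos (Finset.mem_range.1 hi)]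
  · intro i _ hi
    beta_reduce
    rw [if_neg (by simpa using hi), smul_zero]

theorem Pol.add {f g : k → M} (hf : Pol f) (hg : Pol g) : Pol fun t => f t + g t := by
  obtain ⟨N, c, hc⟩ := hf
  obtain ⟨N', d, hd⟩ := hg
  obtain ⟨c', hc'⟩ := Pol.mono hc (le_max_left N N')
  obtain ⟨d', hd'⟩ := Pol.mono hd (le_max_right N N')
  refine ⟨max N N', fun i => c' i + d' i, fun t => ?_⟩
  beta_reduce
  rw [hc' t, hd' t, ← Finset.sum_add_distrib]
  exact Finset.sum_congr rfl fun i _ => (smul_add _ _ _).symm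

theorem Pol.lin {M' : Type*} [AddCommGroup M'] [Module k M'] {f : k → M} (hf : Pol f)
    (L : M →ₗ[k] M') : Pol fun t => L (f t) := by
  obtain ⟨N, c, hc⟩ := hf
  refine ⟨N, fun i => L (c i), fun t => ?_⟩
  beta_reduce
  rw [hc t, map_sum]
  exact Finset.sum_congr rfl fun i _ => map_smul _ _ _

theorem Pol.smulVar {f : k → M} (hf : Pol f) (s : k) : Pol fun t => f (t * s) := by
  obtain ⟨N, c, hc⟩ := hf
  refine ⟨N, fun i => s ^ i • c i, fun t => ?_⟩
  beta_reduce
  rw [hc]
  refine Finset.sum_congr rfl fun i _ => ?_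
  rw [mul_pow, mul_smul]

/-- the linear curve -/
theorem Pol.lin1 (a b : M) : Pol (k := k) fun t => a + t • b := by
  refine ⟨2, fun i => if i = 0 then a else b, fun t => ?_⟩
  simp [Finset.sum_range_succ]

/-- the quadratic curve -/
theorem Pol.quad (a b c : M) : Pol (k := k) fun t => a + t • b + t ^ 2 • c := by
  refine ⟨3, fun i => if i = 0 then a else if i = 1 then b else c, fun t => ?_⟩
  simp [Finset.sum_range_succ]

theorem Pol.mul {R : Type*} [Ring R] [Algebra k R] {f g : k → R} (hf : Pol f) (hg : Pol g) :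
    Pol fun t => f t * g t := by
  obtain ⟨N, c, hc⟩ := hf
  obtain ⟨N', d, hd⟩ := hg
  refine ⟨N + N', fun l => ∑ p ∈ (Finset.range N ×ˢ Finset.range N').filter
    (fun p => p.1 + p.2 = l), c p.1 * d p.2, fun t => ?_⟩
  beta_reduce
  rw [hc t, hd t, Finset.sum_mul_sum, ← Finset.sum_product',
    ← Finset.sum_fiberwise_of_maps_to (s := Finset.range N ×ˢ Finset.range N')
      (t := Finset.range (N + N')) (g := fun p => p.1 + p.2)]
  · refine Finset.sum_congr rfl fun l _ => ?_
    rw [Finset.smul_sum]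
    refine Finset.sum_congr rfl fun p hp => ?_
    rw [← (Finset.mem_filter.1 hp).2, pow_add, smul_mul_smul_comm]
  · intro p hp
    rw [Finset.mem_product, Finset.mem_range, Finset.mem_range] at hp
    rw [Finset.mem_range]
    omega

/-- a polynomial map which vanishes near `0` in a set which accumulates at `0` is `0` -/
theorem Pol.eq_zero {M : Type*} [NormedAddCommGroup M] [NormedSpace k M] {f : k → M} (hf : Pol f)
    {T : Set k} (hT : (𝓝[T \ {0}] (0 : k)).NeBot) (h : ∀ᶠ t in 𝓝[T \ {0}] (0 : k), f t = 0)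
    (t : k) : f t = 0 := by
  obtain ⟨N, c, hc⟩ := hf
  suffices H : ∀ (N : ℕ) (c : ℕ → M),
      (∀ᶠ t in 𝓝[T \ {0}] (0 : k), ∑ i ∈ Finset.range N, t ^ i • c i = 0) →
      ∀ i < N, c i = 0 by
    have h1 := H N c (h.mono fun t ht => by rw [← hc]; exact ht)
    rw [hc]
    exact Finset.sum_eq_zero fun i hi => by rw [h1 i (Finset.mem_range.1 hi), smul_zero]
  intro N
  induction N with
  | zero => intro c _ i hi; exact absurd hi (Nat.not_lt_zero _)
  | succ N ih =>
    intro c h
    have hcont : Continuous fun t : k => ∑ i ∈ Finset.range (N + 1), t ^ i • c i := by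
      refine continuous_finset_sum _ fun i _ => ?_
      exact (continuous_id.pow i).smul continuous_const
    have h0 : c 0 = 0 := by
      have h1 : Tendsto (fun t : k => ∑ i ∈ Finset.range (N + 1), t ^ i • c i)
          (𝓝[T \ {0}] (0 : k)) (𝓝 (∑ i ∈ Finset.range (N + 1), (0 : k) ^ i • c i)) :=
        (hcont.tendsto 0).mono_left nhdsWithin_le_nhds
      have h2 : Tendsto (fun t : k => ∑ i ∈ Finset.range (N + 1), t ^ i • c i)
          (𝓝[T \ {0}] (0 : k)) (𝓝 0) :=
        tendsto_const_nhds.congr' (h.mono fun t ht => ht.symm)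
      have h3 := tendsto_nhds_unique h1 h2
      rw [Finset.sum_range_succ'] at h3
      simpa using h3
    have h1 := ih (fun i => c (i + 1)) ?_
    · intro i hi
      rcases i with _ | i
      · exact h0
      · exact h1 i (by omega)
    · have h2 : ∀ᶠ t in 𝓝[T \ {0}] (0 : k), t ∈ T \ {0} := self_mem_nhdsWithin
      filter_upwards [h, h2] with t ht ht'
      rw [Finset.sum_range_succ', h0, smul_zero, add_zero] at ht
      have h3 : ∑ i ∈ Finset.range N, t ^ (i + 1) • c (i + 1) =
          t • ∑ i ∈ Finset.range N, t ^ i • c (i + 1) := by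
        rw [Finset.smul_sum]
        refine Finset.sum_congr rfl fun i _ => ?_
        rw [pow_succ', mul_smul]
      rw [h3] at ht
      exact (smul_eq_zero.1 ht).resolve_left ht'.2

end pol

/-! ### Groups generated by polynomial curves -/

section grp

variable {k : Type*} [NontriviallyNormedField k] {E : Type*} [Group E] [TopologicalSpace E]
  [IsTopologicalGroup E] {R : Type*} [Ring R] [Algebra k R]

/-- polynomial curves through `1` in the group `E`, for parameters in `T` -/
structure Crv (T : Set k) (Φ : E →* R) (u : k → E) : Prop where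
  tend : Tendsto u (𝓝[T \ {0}] (0 : k)) (𝓝 1)
  pol : ∃ P : k → R, Pol P ∧ ∀ t ∈ T, Φ (u t) = P t
  pol' : ∃ P : k → R, Pol P ∧ ∀ t ∈ T, Φ (u t)⁻¹ = P t

variable (T : Set k) (Φ : E →* R)

/-- the group of the end points of the polynomial curves -/
def W : Subgroup E where
  carrier := {g | ∃ u : k → E, Crv T Φ u ∧ u 1 = g}
  one_mem' := ⟨fun _ => 1, ⟨tendsto_const_nhds, ⟨fun _ => 1, Pol.const _, fun _ _ => map_one Φ⟩,
    ⟨fun _ => 1, Pol.const _, fun _ _ => by rw [inv_one, map_one]⟩⟩, rfl⟩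
  mul_mem' := by
    rintro _ _ ⟨u, ⟨h1, ⟨P, hP, hP'⟩, ⟨Q, hQ, hQ'⟩⟩, rfl⟩ ⟨v, ⟨h1', ⟨P', hP2, hP2'⟩,
      ⟨Q', hQ2, hQ2'⟩⟩, rfl⟩
    refine ⟨fun t => u t * v t, ⟨?_, ⟨_, hP.mul hP2, fun t ht => ?_⟩, ⟨_, hQ2.mul hQ, fun t ht => ?_⟩⟩,
      rfl⟩
    · have := h1.mul h1'
      rwa [mul_one] at this
    · rw [map_mul, hP' t ht, hP2' t ht]
    · rw [mul_inv_rev, map_mul, hQ' t ht, hQ2' t ht]
  inv_mem' := by
    rintro _ ⟨u, ⟨h1, h2, h3⟩, rfl⟩
    refine ⟨fun t => (u t)⁻¹, ⟨?_, h3, ?_⟩, rfl⟩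
    · have := h1.inv
      rwa [inv_one] at this
    · obtain ⟨P, hP, hP'⟩ := h2
      exact ⟨P, hP, fun t ht => by rw [inv_inv]; exact hP' t ht⟩

variable {T Φ}

theorem mem_W_of {u : k → E} (h : Crv T Φ u) : u 1 ∈ W T Φ := ⟨u, h, rfl⟩

/-- a linear condition on the small conjugates holds for all conjugates -/
theorem all_of_small {M : Type*} [NormedAddCommGroup M] [NormedSpace k M]
    (hT : (𝓝[T \ {0}] (0 : k)).NeBot) (h1T : (1 : k) ∈ T) (L : R →ₗ[k] M) {y : E}
    (h : ∀ᶠ b in 𝓝 (1 : E), L (Φ (b * y * b⁻¹)) = 0) {g : E} (hg : g ∈ W T Φ) :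
    L (Φ (g * y * g⁻¹)) = 0 := by
  obtain ⟨u, ⟨h1, ⟨P, hP, hP'⟩, ⟨Q, hQ, hQ'⟩⟩, rfl⟩ := hg
  have h2 : Pol fun t => L (P t * Φ y * Q t) := ((hP.mul (Pol.const _)).mul hQ).lin L
  have h3 : ∀ t ∈ T, L (Φ (u t * y * (u t)⁻¹)) = L (P t * Φ y * Q t) := fun t ht => by
    rw [show Φ (u t * y * (u t)⁻¹) = Φ (u t) * Φ y * Φ (u t)⁻¹ by rw [map_mul, map_mul],
      hP' t ht, hQ' t ht]
  rw [h3 1 h1T]
  refine h2.eq_zero hT ?_ 1
  have h4 : ∀ᶠ t in 𝓝[T \ {0}] (0 : k), t ∈ T \ {0} := self_mem_nhdsWithin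
  filter_upwards [h1.eventually h, h4] with t ht ht'
  rw [← h3 t ht'.1]
  exact ht

end grp

section mat

variable {k : Type*} [NontriviallyNormedField k] {D : Type*} [NormedDivisionRing D]
  [NormedAlgebra k D] {ι : Type*} [Fintype ι] [DecidableEq ι] {E : Type*} [Group E]
  [TopologicalSpace E] [IsTopologicalGroup E] {T : Set k} {Φ : E →* Matrix ι ι D}

/-- the elements without entries of positive weight -/
def Pm (w : ι → ℤ) (Φ : E →* Matrix ι ι D) : Submonoid E where
  carrier := {g | ∀ i j, w j < w i → Φ g i j = 0}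
  one_mem' := fun i j h => by
    rw [map_one, Matrix.one_apply_ne]
    rintro rfl
    exact lt_irrefl _ h
  mul_mem' := fun {a b} ha hb i j h => by
    rw [map_mul, Matrix.mul_apply]
    refine Finset.sum_eq_zero fun l _ => ?_
    rcases lt_or_ge (w l) (w i) with h1 | h1
    · rw [ha i l h1, zero_mul]
    · rw [hb l j (lt_of_lt_of_le h h1), mul_zero]

variable (k D ι) in
/-- an entry -/
def ent (i j : ι) : Matrix ι ι D →ₗ[k] D where
  toFun A := A i j
  map_add' _ _ := rfl
  map_smul' _ _ := rfl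

theorem inv_mem_Pm {w : ι → ℤ} {x : E} (hx : x ∈ Pm w Φ) : x⁻¹ ∈ Pm w Φ := by
  intro i j hij
  let V : Submodule D (ι → D) :=
    { carrier := {v | ∀ l, w l < w i → v l = 0}
      add_mem' := fun {a b} ha hb l hl => by rw [Pi.add_apply, ha l hl, hb l hl, add_zero]
      zero_mem' := fun l _ => rfl
      smul_mem' := fun c v hv l hl => by rw [Pi.smul_apply, hv l hl, smul_zero] }
  let F : V →ₗ[D] V :=
    { toFun := fun v => ⟨Matrix.vecMul v.1 (Φ x), fun l hl => by
        show ∑ p, v.1 p * Φ x p l = 0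
        refine Finset.sum_eq_zero fun p _ => ?_
        rcases lt_or_ge (w p) (w i) with h1 | h1
        · rw [v.2 p h1, zero_mul]
        · rw [hx p l (lt_of_lt_of_le hl h1), mul_zero]⟩
      map_add' := fun a b => Subtype.ext (Matrix.add_vecMul _ _ _)
      map_smul' := fun c v => Subtype.ext (Matrix.smul_vecMul _ _ _) }
  have h1 : ∀ v : ι → D, Matrix.vecMul (Matrix.vecMul v (Φ x)) (Φ x⁻¹) = v := by
    intro v
    rw [Matrix.vecMul_vecMul, ← map_mul, mul_inv_cancel, map_one, Matrix.vecMul_one]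
  have hinj : Function.Injective F := by
    intro a b hab
    apply Subtype.ext
    rw [← h1 a.1, ← h1 b.1]
    exact congrArg (fun v => Matrix.vecMul v (Φ x⁻¹)) (congrArg Subtype.val hab)
  obtain ⟨v, hv⟩ := LinearMap.injective_iff_surjective.1 hinj
    ⟨Pi.single i 1, fun l hl => by
      rw [Pi.single_eq_of_ne]
      rintro rfl
      exact lt_irrefl _ hl⟩
  have h2 : Matrix.vecMul v.1 (Φ x) = Pi.single i 1 := congrArg Subtype.val hv
  have h3 := h1 v.1
  rw [h2, Matrix.single_one_vecMul] at h3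
  have h4 := congrFun h3 j
  rw [show Φ x⁻¹ i j = (Φ x⁻¹).row i j from rfl, h4]
  exact v.2 j hij

/-- **Small transvections.** -/
theorem small (hT : (𝓝[T \ {0}] (0 : k)).NeBot) (h1T : (1 : k) ∈ T) (w : ι → ℤ)
    (hW : W T Φ = ⊤) (hN : ∀ N : Subgroup E, N.Normal → N ≤ Subgroup.center E ∨ N = ⊤)
    (hp : ∃ g i j, w j < w i ∧ Φ g i j ≠ 0) {y : E} (hy : y ∉ Subgroup.center E) {B : Set E}
    (hB : B ∈ 𝓝 (1 : E)) : ∃ b ∈ B, ∃ i j, w j < w i ∧ Φ (b * y * b⁻¹) i j ≠ 0 := by
  by_contra hcon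
  push Not at hcon
  have h1 : ∀ g : E, g * y * g⁻¹ ∈ Pm w Φ := by
    intro g i j hij
    have h2 := all_of_small (k := k) (T := T) (Φ := Φ) (M := D) hT h1T
      (L := ent k D ι i j) (y := y)
      (by filter_upwards [hB] with b hb; exact hcon b hb i j hij) (g := g) (by rw [hW]; trivial)
    exact h2
  have h2 : ∀ g ∈ Subgroup.normalClosure ({y} : Set E), g ∈ Pm w Φ := by
    intro g hg
    induction hg using Subgroup.closure_induction with
    | mem x hx =>
      obtain ⟨z, hz, hc⟩ := Group.mem_conjugatesOfSet_iff.1 hx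
      obtain rfl := mem_singleton_iff.1 hz
      obtain ⟨c, rfl⟩ := isConj_iff.1 hc
      exact h1 c
    | one => exact one_mem _
    | mul a b _ _ ha hb => exact mul_mem ha hb
    | inv a _ ha => exact inv_mem_Pm ha
  rcases hN _ (Subgroup.normalClosure_normal (s := {y})) with h | h
  · exact hy (h (Subgroup.subset_normalClosure (mem_singleton y)))
  · obtain ⟨g, i, j, hij, hg⟩ := hp
    exact hg (h2 g (by rw [h]; trivial) i j hij)

/-- central elements have no entry of positive weight -/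
theorem center_Pm (w : ι → ℤ) {t : k} (ht : 1 < ‖t‖) {a : E}
    (ha : Φ a = Matrix.diagonal fun i => algebraMap k D (t ^ w i)) {z : E}
    (hz : z ∈ Subgroup.center E) : z ∈ Pm w Φ := by
  intro i j hij
  have h1 : Φ z * Φ a = Φ a * Φ z := by
    rw [← map_mul, ← map_mul, (Subgroup.mem_center_iff.1 hz a)]
  rw [ha] at h1
  have h2 := congrFun (congrFun h1 i) j
  rw [Matrix.mul_diagonal, Matrix.diagonal_mul, ← Algebra.commutes, ← sub_eq_zero, ← sub_mul,
    ← map_sub] at h2
  rcases mul_eq_zero.1 h2 with h3 | h3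
  · exfalso
    have h4 : t ^ w j = t ^ w i := by
      have := (map_eq_zero (algebraMap k D)).1 h3
      exact sub_eq_zero.1 this
    have h5 := congrArg (fun x => ‖x‖) h4
    simp only [norm_zpow] at h5
    exact absurd h5 (ne_of_lt (zpow_lt_zpow_right₀ ht hij))
  · exact h3

/-- **The hypothesis `hNZ`**, for a group which is generated by polynomial curves and simple modulo its
centre. -/
theorem hNZ_of_W (hs : ∀ N : Subgroup (E ⧸ Subgroup.center E), N.Normal → N = ⊥ ∨ N = ⊤)
    (hT : (𝓝[T \ {0}] (0 : k)).NeBot) (h1T : (1 : k) ∈ T) (w : ι → ℤ) {t : k} (ht : 1 < ‖t‖) {a : E}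
    (ha : Φ a = Matrix.diagonal fun i => algebraMap k D (t ^ w i)) (hW : W T Φ = ⊤)
    (hp : ∃ g i j, w j < w i ∧ Φ g i j ≠ 0) :
    ∀ B ∈ 𝓝 (1 : E), ∀ y : E,
      (∀ b ∈ B, ∀ p q, w q < w p → Φ (b * y * b⁻¹) p q = 0) → y ∈ Subgroup.center E := by
  intro B hB y hcon
  have h1 : ∀ g : E, g * y * g⁻¹ ∈ Pm w Φ := by
    intro g i j hij
    have h2 := all_of_small (k := k) (T := T) (Φ := Φ) (M := D) hT h1T
      (L := ent k D ι i j) (y := y)
      (by filter_upwards [hB] with b hb; exact hcon b hb i j hij) (g := g) (by rw [hW]; trivial)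
    exact h2
  have h2 : ∀ g ∈ Subgroup.normalClosure ({y} : Set E), g ∈ Pm w Φ := by
    intro g hg
    induction hg using Subgroup.closure_induction with
    | mem x hx =>
      obtain ⟨z, hz, hc⟩ := Group.mem_conjugatesOfSet_iff.1 hx
      obtain rfl := mem_singleton_iff.1 hz
      obtain ⟨c, rfl⟩ := isConj_iff.1 hc
      exact h1 c
    | one => exact one_mem _
    | mul a b _ _ ha hb => exact mul_mem ha hb
    | inv a _ ha => exact inv_mem_Pm ha
  have h3 : ((Subgroup.normalClosure ({y} : Set E)).map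
      (QuotientGroup.mk' (Subgroup.center E))).Normal :=
    Subgroup.Normal.map Subgroup.normalClosure_normal _ (QuotientGroup.mk'_surjective _)
  rcases hs _ h3 with h | h
  · have h4 : (QuotientGroup.mk' (Subgroup.center E)) y ∈ (Subgroup.normalClosure ({y} : Set E)).map
        (QuotientGroup.mk' (Subgroup.center E)) :=
      Subgroup.mem_map_of_mem _ (Subgroup.subset_normalClosure (mem_singleton y))
    rw [h, Subgroup.mem_bot] at h4
    exact (QuotientGroup.eq_one_iff y).1 h4
  · exfalso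
    obtain ⟨g, i, j, hij, hg⟩ := hp
    have h4 : (QuotientGroup.mk' (Subgroup.center E)) g ∈ (Subgroup.normalClosure ({y} : Set E)).map
        (QuotientGroup.mk' (Subgroup.center E)) := by rw [h]; trivial
    obtain ⟨n, hn, hng⟩ := Subgroup.mem_map.1 h4
    have h5 : n⁻¹ * g ∈ Subgroup.center E := QuotientGroup.eq.1 hng
    have h6 : g ∈ Pm w Φ := by
      have := mul_mem (h2 n hn) (center_Pm w ht ha h5)
      rwa [mul_inv_cancel_left] at this
    exact hg (h6 i j hij)

end mat

end Vale.Agent.P092.H793.Nc
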